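import Mathlib

/-!
# P261 (helper432): invariant fractions, abstract part
-/

namespace Vale.Agent.P261.H432

section AbsK

variable {A : Type*} [CommRing A] [IsDomain A] [IsNoetherianRing A]

/-- `S` is a set of injective endomorphisms of the domain `A` such that every nonzero `S`-stable
ideal contains a power of the prime element `u`, which is stable up to units. -/
structure UData (A : Type*) [CommRing A] (S : Set (A →+* A)) (u : A) : Prop where
  prime : Prime u
  inj : ∀ ψ ∈ S, Function.Injective ψ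
  ideal : ∀ J : Ideal A, (∀ ψ ∈ S, ∀ x ∈ J, ψ x ∈ J) → J ≠ ⊥ → ∃ k : ℕ, u ^ k ∈ J
  unit : ∀ ψ ∈ S, ∃ ε : A, IsUnit ε ∧ ψ u = ε * u

variable {S : Set (A →+* A)} {u : A}

/-- semi-invariants are units times powers of `u`. -/
theorem UData.semi (h : UData A S u) {r : A} (hr : r ≠ 0) (hS : ∀ ψ ∈ S, r ∣ ψ r) :
    ∃ (m : ℕ) (w : A), IsUnit w ∧ r = w * u ^ m := by
  obtain ⟨f, hf, hnd⟩ := (FiniteMultiplicity.of_not_isUnit h.prime.not_isUnit
    hr).exists_eq_pow_mul_and_not_dvd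
  set m := multiplicity u r with hm
  have hu0 : u ≠ 0 := h.prime.ne_zero
  have hf0 : f ≠ 0 := by
    rintro rfl
    exact hr (by rw [hf, mul_zero])
  have hstab : ∀ ψ ∈ S, f ∣ ψ f := by
    intro ψ hψ
    obtain ⟨ε, ⟨ε', rfl⟩, hεu⟩ := h.unit ψ hψ
    obtain ⟨y, hy⟩ := hS ψ hψ
    rw [hf, map_mul, map_pow, hεu, mul_pow] at hy
    have h1 : (ε' : A) ^ m * ψ f = f * y := by
      apply mul_left_cancel₀ (pow_ne_zero m hu0)
      linear_combination hy
    have h2 : f ∣ (ε' : A) ^ m * ψ f := ⟨y, h1⟩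
    exact ((ε'.isUnit.pow m).dvd_mul_left).1 h2
  obtain ⟨k, hk⟩ := h.ideal (Ideal.span {f}) (by
    intro ψ hψ x hx
    obtain ⟨y, rfl⟩ := Ideal.mem_span_singleton.1 hx
    rw [map_mul]
    exact Ideal.mem_span_singleton.2 ((hstab ψ hψ).mul_right _)) (by
    rwa [Ne, Ideal.span_singleton_eq_bot])
  rw [Ideal.mem_span_singleton] at hk
  obtain ⟨g, hg⟩ := hk
  have h3 : u ^ k ∣ g := (h.prime.pow_dvd_of_dvd_mul_left k hnd ⟨1, by rw [mul_one]; exact hg.symm⟩)
  obtain ⟨g', rfl⟩ := h3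
  have h4 : f * g' = 1 := by
    apply mul_left_cancel₀ (pow_ne_zero k hu0)
    linear_combination -hg
  exact ⟨m, f, IsUnit.of_mul_eq_one _ h4, by rw [hf, mul_comm]⟩

/-- an invariant fraction or its inverse is integral. -/
theorem UData.pair (h : UData A S u) {a b : A} (ha : a ≠ 0) (hb : b ≠ 0)
    (hS : ∀ ψ ∈ S, ψ a * b = a * ψ b) : b ∣ a ∨ a ∣ b := by
  have hu0 : u ≠ 0 := h.prime.ne_zero
  let J : Ideal A :=
    { carrier := {x | b ∣ x * a}
      add_mem' := by
        intro x y hx hy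
        change b ∣ (x + y) * a
        rw [add_mul]
        exact dvd_add hx hy
      zero_mem' := by
        change b ∣ 0 * a
        rw [zero_mul]
        exact dvd_zero _
      smul_mem' := by
        intro c x hx
        change b ∣ c * x * a
        rw [mul_assoc]
        exact Dvd.dvd.mul_left hx c }
  have hmem : ∀ x, x ∈ J ↔ b ∣ x * a := fun x => Iff.rfl
  obtain ⟨k, hk⟩ := h.ideal J (by
    intro ψ hψ x hx
    rw [hmem] at hx ⊢
    obtain ⟨y, hy⟩ := hx
    refine ⟨ψ y, ?_⟩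
    have h1 := congrArg ψ hy
    rw [map_mul, map_mul] at h1
    have hb' : ψ b ≠ 0 := fun h0 => hb (h.inj ψ hψ (by rw [h0, map_zero]))
    apply mul_left_cancel₀ hb'
    linear_combination b * h1 - ψ x * hS ψ hψ) (by
    intro h0
    have : b ∈ J := (hmem b).2 (dvd_mul_right b a)
    rw [h0, Ideal.mem_bot] at this
    exact hb this)
  rw [hmem] at hk
  obtain ⟨f, hf⟩ := hk
  have hf0 : f ≠ 0 := by
    rintro rfl
    rw [mul_zero] at hf
    exact (mul_ne_zero (pow_ne_zero k hu0) ha) hf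
  obtain ⟨m, w, ⟨w', rfl⟩, hw⟩ := h.semi hf0 (by
    intro ψ hψ
    obtain ⟨ε, -, hεu⟩ := h.unit ψ hψ
    refine ⟨ε ^ k, ?_⟩
    have h1 := congrArg ψ hf
    rw [map_mul, map_mul, map_pow, hεu, mul_pow] at h1
    have hb' : ψ b ≠ 0 := fun h0 => hb (h.inj ψ hψ (by rw [h0, map_zero]))
    apply mul_left_cancel₀ (mul_ne_zero hb' hb)
    linear_combination -b * h1 + ε ^ k * u ^ k * hS ψ hψ + ε ^ k * ψ b * hf)
  rw [hw] at hf
  rcases le_total k m with hkm | hmk
  · left
    obtain ⟨d, rfl⟩ := Nat.exists_eq_add_of_le hkm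
    refine ⟨w' * u ^ d, ?_⟩
    apply mul_left_cancel₀ (pow_ne_zero k hu0)
    rw [pow_add] at hf
    linear_combination hf
  · right
    obtain ⟨d, rfl⟩ := Nat.exists_eq_add_of_le hmk
    refine ⟨(↑(w'⁻¹) : A) * u ^ d, ?_⟩
    apply mul_left_cancel₀ (pow_ne_zero m hu0)
    rw [pow_add] at hf
    have h1 : (↑(w'⁻¹) : A) * (w' : A) = 1 := Units.inv_mul w'
    linear_combination (-(↑(w'⁻¹) : A)) * hf - (b * u ^ m) * h1

end AbsK

end Vale.Agent.P261.H432
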