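import Mathlib

/-!
# P261 (helper432): the Artin argument: invariants of a torsion-free module
-/

namespace Vale.Agent.P261.H432

open Module

/-- Let `Q` be a finitely generated torsion-free module over `R/I`, with semilinear operators
`ρ g` over `τ g`, such that the invariant fractions of `R/I` lie in a finite set.  Then the set of
the invariants of `Q` is finite. -/
theorem artin {R : Type*} [CommRing R] [IsNoetherianRing R] (I : Ideal R) [hI : I.IsPrime]
    {Q : Type*} [AddCommGroup Q] [Module R Q] [Module.Finite R Q]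
    (tf : ∀ (r : R) (q : Q), r • q = 0 ↔ r ∈ I ∨ q = 0)
    {G : Type*} (τ : G → R → R) (ρ : G → Q → Q)
    (hadd : ∀ g a b, ρ g (a + b) = ρ g a + ρ g b)
    (hsmul : ∀ g (r : R) q, ρ g (r • q) = τ g r • ρ g q)
    {C : Set R} (hC : C.Finite)
    (K : ∀ a b : R, b ∉ I → (∀ g, τ g a * b - a * τ g b ∈ I) → ∃ c ∈ C, a - c * b ∈ I) :
    {q : Q | ∀ g, ρ g q = q}.Finite := by
  classical
  have tors : IsTorsionBySet R Q (I : Set R) := fun q a => (tf a q).2 (Or.inl a.2)
  let _ : Module (R ⧸ I) Q := tors.module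
  have hmk : ∀ (r : R) (q : Q), Ideal.Quotient.mk I r • q = r • q := fun r q =>
    IsTorsionBySet.mk_smul tors r q
  have : IsNoetherian (R ⧸ I) Q := by
    have hst : IsScalarTower R (R ⧸ I) Q := tors.isScalarTower
    exact isNoetherian_of_tower R inferInstance
  set V : Set Q := {q : Q | ∀ g, ρ g q = q} with hV
  obtain ⟨s, hs, hmax⟩ := exists_maximal_linearIndepOn (R ⧸ I) (fun q : V => (q : Q))
  have hli : LinearIndependent (R ⧸ I) (fun x : s => ((x : V) : Q)) := hs
  have hfin : Finite s := hli.finite_of_isNoetherian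
  let _ : Fintype s := Fintype.ofFinite s
  -- additive properties of `ρ`
  have hsum : ∀ g (t : Finset s) (f : s → Q), ρ g (∑ i ∈ t, f i) = ∑ i ∈ t, ρ g (f i) := by
    intro g t f
    let ρ' : Q →+ Q := AddMonoidHom.mk' (ρ g) (hadd g)
    exact map_sum ρ' f t
  have key : ∀ v ∈ V, ∃ c : s → R, (∀ i, c i ∈ C) ∧ v = ∑ i, c i • ((i : V) : Q) := by
    intro v hv
    obtain ⟨a, ha, hspan⟩ : ∃ a : R ⧸ I, a ≠ 0 ∧
        a • v ∈ Submodule.span (R ⧸ I) ((fun q : V => (q : Q)) '' s) := by
      by_cases hvs : (⟨v, hv⟩ : V) ∈ s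
      · exact ⟨1, one_ne_zero, by
          rw [one_smul]; exact Submodule.subset_span ⟨⟨v, hv⟩, hvs, rfl⟩⟩
      · exact hmax ⟨v, hv⟩ hvs
    have himg : ((fun q : V => (q : Q)) '' s) = Set.range (fun x : s => ((x : V) : Q)) := by
      ext y
      simp
    rw [himg, Submodule.mem_span_range_iff_exists_fun] at hspan
    obtain ⟨d, hd⟩ := hspan
    obtain ⟨a', rfl⟩ := Ideal.Quotient.mk_surjective a
    choose d' hd' using fun i => Ideal.Quotient.mk_surjective (I := I) (d i)
    have ha' : a' ∉ I := fun h => ha (Ideal.Quotient.eq_zero_iff_mem.2 h)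
    have hrel : a' • v = ∑ i, d' i • ((i : V) : Q) := by
      rw [← hmk, ← hd]
      exact Finset.sum_congr rfl fun i _ => by rw [← hd', hmk]
    have hcross : ∀ i, ∀ g, τ g (d' i) * a' - d' i * τ g a' ∈ I := by
      intro i g
      have h1 : τ g a' • v = ∑ i, τ g (d' i) • ((i : V) : Q) := by
        have h2 := congrArg (ρ g) hrel
        rw [hsmul, hv g, hsum] at h2
        rw [h2]
        exact Finset.sum_congr rfl fun i _ => by rw [hsmul, (i : V).2 g]
      have h3 : ∑ i, Ideal.Quotient.mk I (τ g (d' i) * a' - d' i * τ g a') •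
          ((i : V) : Q) = 0 := by
        have h4 : ∑ i, Ideal.Quotient.mk I (τ g (d' i) * a' - d' i * τ g a') •
            ((i : V) : Q) = a' • ∑ i, τ g (d' i) • ((i : V) : Q) -
              τ g a' • ∑ i, d' i • ((i : V) : Q) := by
          rw [Finset.smul_sum, Finset.smul_sum, ← Finset.sum_sub_distrib]
          refine Finset.sum_congr rfl fun i _ => ?_
          rw [hmk, sub_smul, mul_comm, mul_smul, mul_comm (d' i), mul_smul]
        rw [h4, ← h1, ← hrel, smul_comm, sub_self]
      exact Ideal.Quotient.eq_zero_iff_mem.1 (Fintype.linearIndependent_iff.1 hli _ h3 i)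
    choose c hcC hc using fun i => K (d' i) a' ha' (hcross i)
    refine ⟨c, hcC, ?_⟩
    have h5 : a' • (v - ∑ i, c i • ((i : V) : Q)) = 0 := by
      rw [smul_sub, hrel, Finset.smul_sum, ← Finset.sum_sub_distrib]
      refine Finset.sum_eq_zero fun i _ => ?_
      rw [smul_smul, ← sub_smul, mul_comm a']
      exact (tf _ _).2 (Or.inl (hc i))
    rcases (tf _ _).1 h5 with h6 | h6
    · exact absurd h6 ha'
    · exact sub_eq_zero.1 h6
  have hCf : Finite C := hC
  refine (Set.finite_range (fun c : s → C => ∑ i, ((c i : C) : R) • ((i : V) : Q))).subset ?_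
  intro v hv
  obtain ⟨c, hc, hvc⟩ := key v hv
  exact ⟨fun i => ⟨c i, hc i⟩, hvc.symm⟩

end Vale.Agent.P261.H432
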