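import Vale.Agent.P261.H432.ZpFG

/-!
# P261 (helper432): the first cohomology in the presence of a central element
-/

namespace Vale.Agent.P261.H432

open Module IsLocalRing

universe u

section H1

variable {p : ℕ} [hp : Fact p.Prime]
variable {R : Type*} [CommRing R] [Algebra ℤ_[p] R] {𝔾 : Type*} [Group 𝔾] {π : 𝔾 →* RingAut R}

/-- crossed homomorphisms (1-cocycles). -/
def IsCrossed {M : Type*} [Add M] (ρ : 𝔾 → M → M) (c : 𝔾 → M) : Prop :=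
  ∀ g h, c (g * h) = c g + ρ g (c h)

theorem isCrossed_principal {M : Type*} [AddCommGroup M] [Module R M] {ρ : 𝔾 → M → M}
    (hρ : SemiAct π M ρ) (m : M) : IsCrossed ρ (fun g => ρ g m - m) := by
  intro g h
  change ρ (g * h) m - m = ρ g m - m + ρ g (ρ h m - m)
  rw [hρ.sub, hρ.mul]
  abel

theorem IsCrossed.sub {M : Type*} [AddCommGroup M] [Module R M] {ρ : 𝔾 → M → M}
    (hρ : SemiAct π M ρ) {c d : 𝔾 → M} (hc : IsCrossed ρ c) (hd : IsCrossed ρ d) :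
    IsCrossed ρ (c - d) := by
  intro g h
  change c (g * h) - d (g * h) = c g - d g + ρ g (c h - d h)
  rw [hρ.sub, hc g h, hd g h]
  abel

/-- a crossed homomorphism is determined by its value at `z`. -/
theorem IsCrossed.eq_zero {M : Type*} [AddCommGroup M] [Module R M] {ρ : 𝔾 → M → M}
    (hρ : SemiAct π M ρ) {z : 𝔾} (hz : ∀ g, z * g = g * z) (hinj : ∀ m, ρ z m = m → m = 0)
    {c : 𝔾 → M} (hc : IsCrossed ρ c) (h0 : c z = 0) : c = 0 := by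
  funext g
  apply hinj
  have h1 := hc g z
  have h2 := hc z g
  rw [hz g, h1, h0, hρ.zero, add_zero, zero_add] at h2
  exact h2.symm

theorem IsCrossed.val_mem {M : Type*} [AddCommGroup M] {ρ : 𝔾 → M → M}
    {z : 𝔾} (hz : ∀ g, z * g = g * z) {c : 𝔾 → M} (hc : IsCrossed ρ c) (g : 𝔾) :
    ρ g (c z) - c z = ρ z (c g) - c g := by
  have h1 := hc g z
  have h2 := hc z g
  rw [hz g, h1] at h2
  rw [sub_eq_sub_iff_add_eq_add, add_comm, h2, add_comm]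

/-- the submodule `(ρ z - 1) M`. -/
def subZ {M : Type*} [AddCommGroup M] [Module R M] {ρ : 𝔾 → M → M}
    (hρ : SemiAct π M ρ) {z : 𝔾} (hπz : π z = 1) : Submodule R M where
  carrier := {x | ∃ m, x = ρ z m - m}
  add_mem' := by
    rintro _ _ ⟨a, rfl⟩ ⟨b, rfl⟩
    exact ⟨a + b, by rw [hρ.add]; abel⟩
  zero_mem' := ⟨0, by rw [hρ.zero, sub_self]⟩
  smul_mem' := by
    rintro r _ ⟨a, rfl⟩
    refine ⟨r • a, ?_⟩
    rw [hρ.smul, hπz, smul_sub]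
    rfl

theorem mem_subZ {M : Type*} [AddCommGroup M] [Module R M] {ρ : 𝔾 → M → M}
    (hρ : SemiAct π M ρ) {z : 𝔾} (hπz : π z = 1) (x : M) :
    x ∈ subZ hρ hπz ↔ ∃ m, x = ρ z m - m := Iff.rfl

theorem subZ_stable {M : Type*} [AddCommGroup M] [Module R M] {ρ : 𝔾 → M → M}
    (hρ : SemiAct π M ρ) {z : 𝔾} (hz : ∀ g, z * g = g * z) (hπz : π z = 1) :
    ∀ g, ∀ m ∈ subZ hρ hπz, ρ g m ∈ subZ hρ hπz := by
  rintro g _ ⟨a, rfl⟩
  refine ⟨ρ g a, ?_⟩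
  rw [hρ.sub, ← hρ.mul, ← hρ.mul, hz g]

/-- crossed homomorphisms with value in `(ρ z - 1) M` at `z` are principal. -/
theorem IsCrossed.principal {M : Type*} [AddCommGroup M] [Module R M] {ρ : 𝔾 → M → M}
    (hρ : SemiAct π M ρ) {z : 𝔾} (hz : ∀ g, z * g = g * z) (hπz : π z = 1)
    (hinj : ∀ m, ρ z m = m → m = 0) {c : 𝔾 → M} (hc : IsCrossed ρ c)
    (h0 : c z ∈ subZ hρ hπz) : ∃ m, c = fun g => ρ g m - m := by
  obtain ⟨m, hm⟩ := h0
  refine ⟨m, ?_⟩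
  have h1 := (hc.sub hρ (isCrossed_principal hρ m)).eq_zero hρ hz hinj (by
    change c z - (ρ z m - m) = 0
    rw [hm, sub_self])
  exact sub_eq_zero.1 h1

/-- finiteness of `H¹`. -/
theorem h1_finite {M : Type*} [AddCommGroup M] [Module R M] {ρ : 𝔾 → M → M}
    (hρ : SemiAct π M ρ) {z : 𝔾} (hz : ∀ g, z * g = g * z) (hπz : π z = 1)
    (hinj : ∀ m, ρ z m = m → m = 0)
    (hfin : {q : M ⧸ subZ hρ hπz | ∀ g, hρ.quoMap _ (subZ_stable hρ hz hπz) g q = q}.Finite)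
    {C : Set (𝔾 → M)} (hC : ∀ c ∈ C, IsCrossed ρ c) :
    ∃ S : Finset (𝔾 → M), (S : Set (𝔾 → M)) ⊆ C ∧
      ∀ c ∈ C, ∃ s ∈ S, ∃ m, c = s + fun g => ρ g m - m := by
  classical
  let ev : (𝔾 → M) → M ⧸ subZ hρ hπz := fun c => Submodule.Quotient.mk (c z)
  have h1 : (ev '' C).Finite := by
    refine hfin.subset ?_
    rintro _ ⟨c, hc, rfl⟩ g
    change hρ.quoMap _ (subZ_stable hρ hz hπz) g (Submodule.Quotient.mk (c z)) = _
    rw [hρ.quoMap_mk, Submodule.Quotient.eq]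
    exact ⟨c g, (hC c hc).val_mem hz g⟩
  obtain ⟨S, hSC, hS⟩ := Finset.subset_set_image_iff.1
    (show (h1.toFinset : Set (M ⧸ subZ hρ hπz)) ⊆ ev '' C by rw [Set.Finite.coe_toFinset])
  refine ⟨S, hSC, fun c hc => ?_⟩
  have h2 : ev c ∈ S.image ev := by
    rw [hS, Set.Finite.mem_toFinset]
    exact ⟨c, hc, rfl⟩
  obtain ⟨s, hs, hsc⟩ := Finset.mem_image.1 h2
  have h3 := (Submodule.Quotient.eq _).1 hsc.symm
  obtain ⟨m, hm⟩ := ((hC c hc).sub hρ (hC s (hSC hs))).principal hρ hz hπz hinj h3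
  exact ⟨s, hs, m, by rw [← hm]; abel⟩

/-- the `p^k`-torsion of `H¹` of a `p`-torsion-free module is finite. -/
theorem h1_ptors {M : Type*} [AddCommGroup M] [Module R M] {ρ : 𝔾 → M → M}
    (hρ : SemiAct π M ρ) (N : ℕ) (htf : ∀ m : M, (N : R) • m = 0 → m = 0)
    (hN : Submodule R M) (hNmem : ∀ x, x ∈ hN ↔ ∃ m, x = (N : R) • m)
    (hst : ∀ g, ∀ m ∈ hN, ρ g m ∈ hN)
    (hfin : {q : M ⧸ hN | ∀ g, hρ.quoMap _ hst g q = q}.Finite)
    {C : Set (𝔾 → M)} (hCN : ∀ c ∈ C, ∃ m, ∀ g, (N : R) • c g = ρ g m - m) :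
    ∃ S : Finset (𝔾 → M), (S : Set (𝔾 → M)) ⊆ C ∧
      ∀ c ∈ C, ∃ s ∈ S, ∃ m, c = s + fun g => ρ g m - m := by
  classical
  have hex : ∀ c : 𝔾 → M, ∃ m, c ∈ C → ∀ g, (N : R) • c g = ρ g m - m := by
    intro c
    by_cases hc : c ∈ C
    · obtain ⟨m, hm⟩ := hCN c hc
      exact ⟨m, fun _ => hm⟩
    · exact ⟨0, fun h => absurd h hc⟩
  choose μ hμ using hex
  let ev : (𝔾 → M) → M ⧸ hN := fun c => Submodule.Quotient.mk (μ c)
  have h1 : (ev '' C).Finite := by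
    refine hfin.subset ?_
    rintro _ ⟨c, hc, rfl⟩ g
    change hρ.quoMap _ hst g (Submodule.Quotient.mk (μ c)) = _
    rw [hρ.quoMap_mk, Submodule.Quotient.eq, hNmem]
    exact ⟨c g, (hμ c hc g).symm⟩
  obtain ⟨S, hSC, hS⟩ := Finset.subset_set_image_iff.1
    (show (h1.toFinset : Set (M ⧸ hN)) ⊆ ev '' C by rw [Set.Finite.coe_toFinset])
  refine ⟨S, hSC, fun c hc => ?_⟩
  have h2 : ev c ∈ S.image ev := by
    rw [hS, Set.Finite.mem_toFinset]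
    exact ⟨c, hc, rfl⟩
  obtain ⟨s, hs, hsc⟩ := Finset.mem_image.1 h2
  have h3 := (Submodule.Quotient.eq _).1 hsc.symm
  obtain ⟨m, hm⟩ := (hNmem _).1 h3
  refine ⟨s, hs, m, ?_⟩
  funext g
  have h4 := hμ c hc g
  have h5 := hμ s (hSC hs) g
  have h6 : (N : R) • (c g - (s g + (ρ g m - m))) = 0 := by
    rw [smul_sub, smul_add, smul_sub, h4, h5]
    have h7 : (N : R) • ρ g m = ρ g ((N : R) • m) := by rw [hρ.smul, map_natCast]
    rw [h7, ← hm, hρ.sub]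
    abel
  exact sub_eq_zero.1 (htf _ h6)

variable [IsLocalRing R] [IsNoetherianRing R]

/-- **Finite generation of `H¹`.** -/
theorem h1_fg (hpm : (p : R) ∈ maximalIdeal R)
    (hπ : ∀ g (c : ℤ_[p]), π g (algebraMap ℤ_[p] R c) = algebraMap ℤ_[p] R c)
    (hfin : ∀ (M : Type u) [AddCommGroup M] [Module R M] [Module.Finite R M] (ρ : 𝔾 → M → M),
      SemiAct π M ρ → ∀ k : ℕ, (∀ m : M, (p : R) ^ k • m = 0) → {m : M | ∀ g, ρ g m = m}.Finite)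
    {M : Type u} [AddCommGroup M] [Module R M] [Module ℤ_[p] M] [IsScalarTower ℤ_[p] R M]
    [Module.Finite R M] {ρ : 𝔾 → M → M} (hρ : SemiAct π M ρ) {z : 𝔾}
    (hz : ∀ g, z * g = g * z) (hπz : π z = 1) (hinj : ∀ m, ρ z m = m → m = 0)
    (C : Submodule ℤ_[p] (𝔾 → M)) (hC : ∀ c ∈ C, IsCrossed ρ c) :
    ∃ S : Finset (𝔾 → M), (S : Set (𝔾 → M)) ⊆ C ∧
      ∀ c ∈ C, ∃ (a : (𝔾 → M) → ℤ_[p]) (m : M),
        c = ∑ s ∈ S, a s • s + fun g => ρ g m - m := by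
  classical
  have h1 := inv_fg hpm hπ hfin (hρ.quo _ (subZ_stable hρ hz hπz))
  let ev : (𝔾 → M) →ₗ[ℤ_[p]] M ⧸ subZ hρ hπz :=
    ((subZ hρ hπz).mkQ.restrictScalars ℤ_[p]).comp (LinearMap.proj z)
  have hev : ∀ c, ev c = Submodule.Quotient.mk (c z) := fun c => rfl
  have h2 : C.map ev ≤ invZ hπ (hρ.quo _ (subZ_stable hρ hz hπz)) := by
    rintro _ ⟨c, hc, rfl⟩ g
    rw [hev, hρ.quoMap_mk, Submodule.Quotient.eq]
    exact ⟨c g, (hC c hc).val_mem hz g⟩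
  obtain ⟨t, ht⟩ := Submodule.FG.of_le h1 h2
  obtain ⟨S, hSC, hS⟩ := Finset.subset_set_image_iff.1
    (show (t : Set (M ⧸ subZ hρ hπz)) ⊆ ev '' C by
      intro x hx
      have : x ∈ C.map ev := by rw [← ht]; exact Submodule.subset_span hx
      exact this)
  refine ⟨S, hSC, fun c hc => ?_⟩
  have h3 : ev c ∈ (Submodule.span ℤ_[p] (S : Set (𝔾 → M))).map ev := by
    rw [Submodule.map_span, ← Finset.coe_image, hS, ht]
    exact ⟨c, hc, rfl⟩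
  obtain ⟨c0, hc0, hc0c⟩ := h3
  have hc0C : c0 ∈ C := (Submodule.span_le.2 hSC) hc0
  obtain ⟨a, -, ha⟩ := Submodule.mem_span_finset.1 hc0
  have h4 : (c - c0) z ∈ subZ hρ hπz := by
    rw [hev, hev] at hc0c
    exact (Submodule.Quotient.eq _).1 hc0c.symm
  obtain ⟨m, hm⟩ := ((hC c hc).sub hρ (hC c0 hc0C)).principal hρ hz hπz hinj h4
  exact ⟨a, m, by rw [ha, ← hm]; abel⟩

end H1

end Vale.Agent.P261.H432
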