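import Vale.Agent.P261.H432.Artin

/-!
# P261 (helper432): semilinear actions and the finiteness of invariants, abstract part
-/

namespace Vale.Agent.P261.H432

open Module

/-- `ρ` is a semilinear action of the group `𝔾` on the `R`-module `M`, where `𝔾` acts on `R`
through `π`. -/
structure SemiAct {R : Type*} [CommRing R] {𝔾 : Type*} [Group 𝔾] (π : 𝔾 →* RingAut R) (M : Type*)
    [AddCommGroup M] [Module R M] (ρ : 𝔾 → M → M) : Prop where
  one : ∀ m, ρ 1 m = m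
  mul : ∀ g h m, ρ (g * h) m = ρ g (ρ h m)
  add : ∀ g m m', ρ g (m + m') = ρ g m + ρ g m'
  smul : ∀ g (r : R) m, ρ g (r • m) = π g r • ρ g m

section

variable {R : Type*} [CommRing R] {𝔾 : Type*} [Group 𝔾] {π : 𝔾 →* RingAut R} {M : Type*}
  [AddCommGroup M] [Module R M] {ρ : 𝔾 → M → M}

theorem SemiAct.zero (h : SemiAct π M ρ) (g : 𝔾) : ρ g 0 = 0 := by
  have h1 := h.add g 0 0
  rw [add_zero] at h1
  exact left_eq_add.1 h1

theorem SemiAct.neg (h : SemiAct π M ρ) (g : 𝔾) (m : M) : ρ g (-m) = -ρ g m := by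
  have h1 := h.add g (-m) m
  rw [neg_add_cancel, h.zero] at h1
  exact eq_neg_of_add_eq_zero_left h1.symm

theorem SemiAct.sub (h : SemiAct π M ρ) (g : 𝔾) (m m' : M) :
    ρ g (m - m') = ρ g m - ρ g m' := by
  rw [sub_eq_add_neg, h.add, h.neg, ← sub_eq_add_neg]

/-- the operators as semilinear maps. -/
def SemiAct.map (h : SemiAct π M ρ) (g : 𝔾) : M →ₛₗ[(π g : R →+* R)] M where
  toFun := ρ g
  map_add' := h.add g
  map_smul' := h.smul g

/-- the operators on a stable submodule. -/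
def resMap (ρ : 𝔾 → M → M) (N : Submodule R M) (hN : ∀ g, ∀ m ∈ N, ρ g m ∈ N) :
    𝔾 → N → N := fun g x => ⟨ρ g x, hN g x x.2⟩

theorem SemiAct.res (h : SemiAct π M ρ) (N : Submodule R M) (hN : ∀ g, ∀ m ∈ N, ρ g m ∈ N) :
    SemiAct π N (resMap ρ N hN) where
  one _ := Subtype.ext (h.one _)
  mul g g' _ := Subtype.ext (h.mul g g' _)
  add g _ _ := Subtype.ext (h.add g _ _)
  smul g r _ := Subtype.ext (h.smul g r _)

/-- the operators on the quotient by a stable submodule. -/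
def SemiAct.quoMap (h : SemiAct π M ρ) (N : Submodule R M) (hN : ∀ g, ∀ m ∈ N, ρ g m ∈ N) :
    𝔾 → (M ⧸ N) → (M ⧸ N) := fun g =>
  Submodule.mapQ N N (h.map g) (fun m hm => hN g m hm)

theorem SemiAct.quoMap_mk (h : SemiAct π M ρ) (N : Submodule R M)
    (hN : ∀ g, ∀ m ∈ N, ρ g m ∈ N) (g : 𝔾) (m : M) :
    h.quoMap N hN g (Submodule.Quotient.mk m) = Submodule.Quotient.mk (ρ g m) := rfl

theorem SemiAct.quo (h : SemiAct π M ρ) (N : Submodule R M) (hN : ∀ g, ∀ m ∈ N, ρ g m ∈ N) :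
    SemiAct π (M ⧸ N) (h.quoMap N hN) where
  one q := by
    obtain ⟨m, rfl⟩ := Submodule.Quotient.mk_surjective _ q
    rw [h.quoMap_mk, h.one]
  mul g g' q := by
    obtain ⟨m, rfl⟩ := Submodule.Quotient.mk_surjective _ q
    rw [h.quoMap_mk, h.quoMap_mk, h.quoMap_mk, h.mul]
  add g q q' := map_add (Submodule.mapQ N N (h.map g) (fun m hm => hN g m hm)) q q'
  smul g r q := map_smulₛₗ (Submodule.mapQ N N (h.map g) (fun m hm => hN g m hm)) r q

/-- finiteness of the invariants in an extension. -/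
theorem SemiAct.finite_ext (h : SemiAct π M ρ) (N : Submodule R M)
    (hN : ∀ g, ∀ m ∈ N, ρ g m ∈ N) (h1 : {m : M | m ∈ N ∧ ∀ g, ρ g m = m}.Finite)
    (h2 : {q : M ⧸ N | ∀ g, h.quoMap N hN g q = q}.Finite) :
    {m : M | ∀ g, ρ g m = m}.Finite := by
  refine Set.Finite.of_finite_fibers (Submodule.Quotient.mk (p := N)) (h2.subset ?_) ?_
  · rintro _ ⟨m, hm, rfl⟩ g
    rw [h.quoMap_mk, hm g]
  · rintro _ ⟨m0, hm0, rfl⟩
    refine (h1.image (fun m => m + m0)).subset ?_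
    rintro m ⟨hm, hmq⟩
    refine ⟨m - m0, ⟨?_, fun g => ?_⟩, sub_add_cancel _ _⟩
    · exact (Submodule.Quotient.eq N).1 hmq
    · rw [h.sub, hm g, hm0 g]

/-- one step of the Landweber filtration. -/
theorem SemiAct.finite_step [IsNoetherianRing R] [Module.Finite R M] (h : SemiAct π M ρ)
    (N N' : Submodule R M) (hN : ∀ g, ∀ m ∈ N, ρ g m ∈ N)
    (hN' : ∀ g, ∀ m ∈ N', ρ g m ∈ N') (I : Ideal R) [I.IsPrime]
    (tf : ∀ m ∈ N', ∀ r : R, r • m ∈ N ↔ r ∈ I ∨ m ∈ N) {C : Set R} (hC : C.Finite)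
    (K : ∀ a b : R, b ∉ I → (∀ g, π g a * b - a * π g b ∈ I) → ∃ c ∈ C, a - c * b ∈ I)
    (h1 : {m : M | m ∈ N ∧ ∀ g, ρ g m = m}.Finite) :
    {m : M | m ∈ N' ∧ ∀ g, ρ g m = m}.Finite := by
  have hr := h.res N' hN'
  have hst : ∀ g, ∀ m ∈ N.comap N'.subtype, resMap ρ N' hN' g m ∈ N.comap N'.subtype := by
    intro g m hm
    rw [Submodule.mem_comap] at hm ⊢
    exact hN g _ hm
  have hq := hr.quo _ hst
  have hQ := artin I (Q := N' ⧸ N.comap N'.subtype) (by
    intro r q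
    obtain ⟨m, rfl⟩ := Submodule.Quotient.mk_surjective _ q
    rw [← Submodule.Quotient.mk_smul, Submodule.Quotient.mk_eq_zero,
      Submodule.Quotient.mk_eq_zero, Submodule.mem_comap, Submodule.mem_comap]
    exact tf m m.2 r) (fun g r => π g r) (hr.quoMap _ hst) hq.add hq.smul hC K
  have h2 := hr.finite_ext (N.comap N'.subtype) hst (by
    refine Set.Finite.of_finite_image (f := Subtype.val) (h1.subset ?_)
      Subtype.val_injective.injOn
    rintro _ ⟨m, ⟨hm1, hm2⟩, rfl⟩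
    rw [Submodule.mem_comap] at hm1
    exact ⟨hm1, fun g => congrArg Subtype.val (hm2 g)⟩) hQ
  refine (h2.image Subtype.val).subset ?_
  rintro m ⟨hm, hm'⟩
  exact ⟨⟨m, hm⟩, fun g => Subtype.ext (hm' g), rfl⟩

end

end Vale.Agent.P261.H432
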