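import Vale.Agent.P261.H432.Step

/-!
# P261 (helper432): finite generation over `ℤ_p` from finiteness modulo `p`
-/

namespace Vale.Agent.P261.H432

open Module IsLocalRing

section Zp

variable {p : ℕ} [hp : Fact p.Prime]

theorem pi_precomplete (S : Type*) [Finite S] :
    IsPrecomplete (maximalIdeal ℤ_[p]) (S → ℤ_[p]) := by
  have hmem : ∀ (k : ℕ) (x : S → ℤ_[p]), x ∈ (maximalIdeal ℤ_[p] ^ k • ⊤ :
      Submodule ℤ_[p] (S → ℤ_[p])) ↔ ∀ s, x s ∈ (maximalIdeal ℤ_[p] ^ k • ⊤ :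
        Submodule ℤ_[p] ℤ_[p]) := by
    intro k x
    rw [PadicInt.maximalIdeal_eq_span_p, Ideal.span_singleton_pow,
      Submodule.ideal_span_singleton_smul, Submodule.mem_smul_pointwise_iff_exists]
    constructor
    · rintro ⟨y, -, rfl⟩ s
      rw [Submodule.ideal_span_singleton_smul, Submodule.mem_smul_pointwise_iff_exists]
      exact ⟨y s, Submodule.mem_top, rfl⟩
    · intro h
      have h' : ∀ s, ∃ y : ℤ_[p], (p : ℤ_[p]) ^ k • y = x s := by
        intro s
        have h1 := h s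
        rw [Submodule.ideal_span_singleton_smul, Submodule.mem_smul_pointwise_iff_exists] at h1
        obtain ⟨y, -, hy⟩ := h1
        exact ⟨y, hy⟩
      choose y hy using h'
      exact ⟨y, Submodule.mem_top, funext hy⟩
  constructor
  intro f hf
  have h1 : ∀ s, ∃ L : ℤ_[p], ∀ k, f k s ≡ L [SMOD (maximalIdeal ℤ_[p] ^ k • ⊤ :
      Submodule ℤ_[p] ℤ_[p])] := by
    intro s
    refine IsPrecomplete.prec' (I := maximalIdeal ℤ_[p]) (fun k => f k s) ?_
    intro a b hab
    have h2 := hf hab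
    rw [SModEq.sub_mem] at h2 ⊢
    exact (hmem a _).1 h2 s
  choose L hL using h1
  refine ⟨L, fun k => ?_⟩
  rw [SModEq.sub_mem, hmem]
  intro s
  have := hL s k
  rw [SModEq.sub_mem] at this
  exact this

/-- a `p`-adically separated `ℤ_p`-module which is finite modulo `p` is finitely generated. -/
theorem zp_finite {L : Type*} [AddCommGroup L] [Module ℤ_[p] L]
    (hsep : ∀ x : L, (∀ k : ℕ, ∃ y : L, x = (p : ℤ_[p]) ^ k • y) → x = 0)
    {S : Set L} (hS : S.Finite) (hgen : ∀ x : L, ∃ s ∈ S, ∃ y : L, x = s + (p : ℤ_[p]) • y) :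
    Module.Finite ℤ_[p] L := by
  classical
  have hfin : Finite S := hS
  let _ : Fintype S := Fintype.ofFinite S
  have hpre := pi_precomplete (p := p) S
  have hmem : ∀ (k : ℕ) (x : L), x ∈ (maximalIdeal ℤ_[p] ^ k • ⊤ : Submodule ℤ_[p] L) ↔
      ∃ y : L, x = (p : ℤ_[p]) ^ k • y := by
    intro k x
    rw [PadicInt.maximalIdeal_eq_span_p, Ideal.span_singleton_pow,
      Submodule.ideal_span_singleton_smul, Submodule.mem_smul_pointwise_iff_exists]
    constructor
    · rintro ⟨y, -, rfl⟩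
      exact ⟨y, rfl⟩
    · rintro ⟨y, rfl⟩
      exact ⟨y, Submodule.mem_top, rfl⟩
  have hhaus : IsHausdorff (maximalIdeal ℤ_[p]) L := by
    constructor
    intro x hx
    apply hsep
    intro k
    have h1 := hx k
    rw [SModEq.zero, hmem] at h1
    exact h1
  have hsurj := surjective_of_mkQ_comp_surjective (I := maximalIdeal ℤ_[p])
    (f := Fintype.linearCombination ℤ_[p] (fun s : S => (s : L))) (by
      intro q
      obtain ⟨x, rfl⟩ := Submodule.Quotient.mk_surjective _ q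
      obtain ⟨s, hs, y, hy⟩ := hgen x
      refine ⟨Pi.single ⟨s, hs⟩ 1, ?_⟩
      rw [LinearMap.comp_apply, Fintype.linearCombination_apply_single, one_smul,
        Submodule.mkQ_apply, Submodule.Quotient.eq]
      have h1 : x - s ∈ (maximalIdeal ℤ_[p] ^ 1 • ⊤ : Submodule ℤ_[p] L) := by
        rw [hmem]
        exact ⟨y, by rw [hy, pow_one, add_sub_cancel_left]⟩
      rw [pow_one] at h1
      rw [← neg_sub]
      exact (Submodule.neg_mem_iff _).2 h1)
  exact Module.Finite.of_surjective _ hsurj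

end Zp

universe u

variable {p : ℕ} [hp : Fact p.Prime]

section Inv

variable {R : Type*} [CommRing R] [Algebra ℤ_[p] R] {𝔾 : Type*} [Group 𝔾] {π : 𝔾 →* RingAut R}

/-- the `ℤ_p`-module of the invariants. -/
def invZ (hπ : ∀ g (c : ℤ_[p]), π g (algebraMap ℤ_[p] R c) = algebraMap ℤ_[p] R c)
    {M : Type*} [AddCommGroup M] [Module R M] [Module ℤ_[p] M] [IsScalarTower ℤ_[p] R M]
    {ρ : 𝔾 → M → M} (hρ : SemiAct π M ρ) : Submodule ℤ_[p] M where
  carrier := {m | ∀ g, ρ g m = m}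
  add_mem' := by
    intro a b ha hb g
    rw [hρ.add, ha g, hb g]
  zero_mem' := fun g => hρ.zero g
  smul_mem' := by
    intro c m hm g
    rw [← algebraMap_smul R c m, hρ.smul, hπ, hm g]

theorem mem_invZ (hπ : ∀ g (c : ℤ_[p]), π g (algebraMap ℤ_[p] R c) = algebraMap ℤ_[p] R c)
    {M : Type*} [AddCommGroup M] [Module R M] [Module ℤ_[p] M] [IsScalarTower ℤ_[p] R M]
    {ρ : 𝔾 → M → M} (hρ : SemiAct π M ρ) (m : M) :
    m ∈ invZ hπ hρ ↔ ∀ g, ρ g m = m := Iff.rfl

variable [IsLocalRing R] [IsNoetherianRing R]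

/-- the torsion-free case. -/
theorem inv_fg_tf (hpm : (p : R) ∈ maximalIdeal R)
    (hπ : ∀ g (c : ℤ_[p]), π g (algebraMap ℤ_[p] R c) = algebraMap ℤ_[p] R c)
    (hfin : ∀ (M : Type u) [AddCommGroup M] [Module R M] [Module.Finite R M] (ρ : 𝔾 → M → M),
      SemiAct π M ρ → ∀ k : ℕ, (∀ m : M, (p : R) ^ k • m = 0) → {m : M | ∀ g, ρ g m = m}.Finite)
    {M : Type u} [AddCommGroup M] [Module R M] [Module ℤ_[p] M] [IsScalarTower ℤ_[p] R M]
    [Module.Finite R M] {ρ : 𝔾 → M → M} (hρ : SemiAct π M ρ)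
    (htf : ∀ m : M, (p : R) • m = 0 → m = 0) : (invZ hπ hρ).FG := by
  rw [← Module.Finite.iff_fg]
  have hcast : ∀ m : M, (p : ℤ_[p]) • m = (p : R) • m := by
    intro m
    rw [← algebraMap_smul R (p : ℤ_[p]) m, map_natCast]
  -- `M / pM`
  set N : Submodule R M := (Ideal.span {(p : R)}) • ⊤ with hN
  have hNmem : ∀ m, m ∈ N ↔ ∃ y, m = (p : R) • y := by
    intro m
    rw [hN, Submodule.ideal_span_singleton_smul, Submodule.mem_smul_pointwise_iff_exists]
    constructor
    · rintro ⟨y, -, rfl⟩; exact ⟨y, rfl⟩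
    · rintro ⟨y, rfl⟩; exact ⟨y, Submodule.mem_top, rfl⟩
  have hNst : ∀ g, ∀ m ∈ N, ρ g m ∈ N := by
    intro g m hm
    obtain ⟨y, rfl⟩ := (hNmem m).1 hm
    exact (hNmem _).2 ⟨ρ g y, by rw [hρ.smul, map_natCast]⟩
  have h1 := hfin (M ⧸ N) _ (hρ.quo N hNst) 1 (by
    intro q
    obtain ⟨m, rfl⟩ := Submodule.Quotient.mk_surjective _ q
    rw [pow_one, ← Submodule.Quotient.mk_smul, Submodule.Quotient.mk_eq_zero]
    exact (hNmem _).2 ⟨m, rfl⟩)
  -- representatives
  have hrep : ∀ q : M ⧸ N, ∃ x : invZ hπ hρ, (∃ x' : invZ hπ hρ,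
      Submodule.Quotient.mk (x' : M) = q) → Submodule.Quotient.mk (p := N) (x : M) = q := by
    intro q
    by_cases hq : ∃ x' : invZ hπ hρ, Submodule.Quotient.mk (x' : M) = q
    · obtain ⟨x', hx'⟩ := hq
      exact ⟨x', fun _ => hx'⟩
    · exact ⟨0, fun h => absurd h hq⟩
  choose rep hrep using hrep
  refine zp_finite (S := rep '' {q : M ⧸ N | ∀ g, hρ.quoMap N hNst g q = q}) ?_
    (h1.image _) ?_
  · intro x hx
    apply Subtype.ext
    have h2 := Ideal.iInf_pow_smul_eq_bot_of_isLocalRing (M := M) (Ideal.span {(p : R)}) (by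
      intro h0
      have h3 : Ideal.span {(p : R)} ≤ maximalIdeal R := by
        rwa [Ideal.span_singleton_le_iff_mem]
      rw [h0, top_le_iff] at h3
      exact (maximalIdeal.isMaximal R).ne_top h3)
    have h4 : (x : M) ∈ (⨅ i : ℕ, Ideal.span {(p : R)} ^ i • ⊤ : Submodule R M) := by
      rw [Submodule.mem_iInf]
      intro k
      obtain ⟨y, hy⟩ := hx k
      rw [Ideal.span_singleton_pow, Submodule.ideal_span_singleton_smul,
        Submodule.mem_smul_pointwise_iff_exists]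
      refine ⟨y, Submodule.mem_top, ?_⟩
      rw [hy]
      change (p : R) ^ k • (y : M) = (p : ℤ_[p]) ^ k • (y : M)
      rw [← algebraMap_smul R ((p : ℤ_[p]) ^ k) (y : M), map_pow, map_natCast]
    rw [h2, Submodule.mem_bot] at h4
    exact h4
  · intro x
    refine ⟨rep (Submodule.Quotient.mk (x : M)), ⟨_, ?_, rfl⟩, ?_⟩
    · intro g
      rw [hρ.quoMap_mk, x.2 g]
    · have h2 := hrep (Submodule.Quotient.mk (x : M)) ⟨x, rfl⟩
      have h3 := (Submodule.Quotient.eq N).1 h2.symm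
      obtain ⟨y, hy⟩ := (hNmem _).1 h3
      refine ⟨⟨y, fun g => ?_⟩, ?_⟩
      · have h4 : ρ g ((p : R) • y) = (p : R) • y := by
          rw [← hy, hρ.sub, x.2 g, (rep (Submodule.Quotient.mk (x : M))).2 g]
        rw [hρ.smul, map_natCast] at h4
        have h5 : (p : R) • (ρ g y - y) = 0 := by rw [smul_sub, h4, sub_self]
        exact sub_eq_zero.1 (htf _ h5)
      · apply Subtype.ext
        change (x : M) = (rep (Submodule.Quotient.mk (x : M)) : M) + (p : ℤ_[p]) • y
        rw [hcast, ← hy]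
        abel

/-- **Finite generation of the invariants.** -/
theorem inv_fg (hpm : (p : R) ∈ maximalIdeal R)
    (hπ : ∀ g (c : ℤ_[p]), π g (algebraMap ℤ_[p] R c) = algebraMap ℤ_[p] R c)
    (hfin : ∀ (M : Type u) [AddCommGroup M] [Module R M] [Module.Finite R M] (ρ : 𝔾 → M → M),
      SemiAct π M ρ → ∀ k : ℕ, (∀ m : M, (p : R) ^ k • m = 0) → {m : M | ∀ g, ρ g m = m}.Finite)
    {M : Type u} [AddCommGroup M] [Module R M] [Module ℤ_[p] M] [IsScalarTower ℤ_[p] R M]
    [Module.Finite R M] {ρ : 𝔾 → M → M} (hρ : SemiAct π M ρ) : (invZ hπ hρ).FG := by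
  -- the `p`-power torsion
  let f : ℕ →o Submodule R M :=
    { toFun := fun k => LinearMap.ker (LinearMap.lsmul R M ((p : R) ^ k))
      monotone' := by
        intro a b hab m hm
        rw [LinearMap.mem_ker, LinearMap.lsmul_apply] at hm ⊢
        obtain ⟨d, rfl⟩ := Nat.exists_eq_add_of_le hab
        rw [add_comm, pow_add, mul_smul, hm, smul_zero] }
  have hf : ∀ k m, m ∈ f k ↔ (p : R) ^ k • m = 0 := fun k m => by
    change m ∈ LinearMap.ker (LinearMap.lsmul R M ((p : R) ^ k)) ↔ _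
    rw [LinearMap.mem_ker, LinearMap.lsmul_apply]
  obtain ⟨K, hK⟩ := monotone_stabilizes_iff_noetherian.2 (inferInstance : IsNoetherian R M) f
  set T := f K with hT
  have hTst : ∀ g, ∀ m ∈ T, ρ g m ∈ T := by
    intro g m hm
    rw [hT, hf] at hm ⊢
    have h1 : π g ((p : R) ^ K) = (p : R) ^ K := by rw [map_pow, map_natCast]
    rw [← h1, ← hρ.smul, hm, hρ.zero]
  have htf : ∀ q : M ⧸ T, (p : R) • q = 0 → q = 0 := by
    intro q hq
    obtain ⟨m, rfl⟩ := Submodule.Quotient.mk_surjective _ q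
    rw [← Submodule.Quotient.mk_smul, Submodule.Quotient.mk_eq_zero, hT, hf, smul_smul,
      ← pow_succ, ← hf] at hq
    rw [Submodule.Quotient.mk_eq_zero, hK (K + 1) (Nat.le_succ K)]
    exact hq
  have h1 := inv_fg_tf hpm hπ hfin (hρ.quo T hTst) htf
  have h2 := hfin T _ (hρ.res T hTst) K (by
    intro m
    apply Subtype.ext
    exact (hf K m).1 m.2)
  let q : M →ₗ[ℤ_[p]] M ⧸ T := T.mkQ.restrictScalars ℤ_[p]
  refine Submodule.fg_of_fg_map_of_fg_inf_ker q ?_ ?_
  · refine Submodule.FG.of_le h1 ?_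
    rintro _ ⟨m, hm, rfl⟩ g
    change hρ.quoMap T hTst g (Submodule.Quotient.mk m) = Submodule.Quotient.mk m
    rw [hρ.quoMap_mk, hm g]
  · have h3 : ((invZ hπ hρ ⊓ LinearMap.ker q : Submodule ℤ_[p] M) : Set M).Finite := by
      refine (h2.image Subtype.val).subset ?_
      rintro m ⟨hm1, hm2⟩
      have hmT : m ∈ T := (Submodule.Quotient.mk_eq_zero T).1 hm2
      exact ⟨⟨m, hmT⟩, fun g => Subtype.ext (hm1 g), rfl⟩
    exact ⟨h3.toFinset, by rw [Set.Finite.coe_toFinset, Submodule.span_eq]⟩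

end Inv

end Vale.Agent.P261.H432
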